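import Vale.Agent.P159.RSW.Spec2

/-!
# RSW, the last step (second source): from `ArmAll2`, `L4Stmt`, `L5Stmt2` to `RSWStmt2`
-/

namespace Vale.Agent.P159.RSW.H442

open Vale.Agent.P145.FB

/-- Two crossings of rectangles joined by the crossing of a near-square. -/
theorem chain' (P : PP) (G : Geo) {c0 : ℝ} (h0 : 0 ≤ c0) {w w' h o : ℤ} (hh : 0 ≤ h) (ho : 0 ≤ o)
    (hsq : c0 ≤ P.L h o) (hw : o ≤ w) (hw' : o ≤ w') {a b : ℝ} (ha : 0 ≤ a) (hb : 0 ≤ b)
    (hwa : a ≤ P.L w h) (hwb : b ≤ P.L w' h) : a * c0 * b ≤ P.L (w + w' - o) h := by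
  refine P.fkg3 (IL_LRc 0 w 0 h) (IL_BTc (w - o) w 0 h) (IL_LRc (w - o) (w + w' - o) 0 h)
    (fun S h1 h2 h3 => G.chain 0 (w - o) w (w + w' - o) 0 h S (by omega) (by omega) (by omega)
      (by omega) h1 h2 h3) ha h0 hb hwa ?_ ?_
  · rw [P.B_eq']
    have e1 : h - 0 = h := by ring
    have e2 : w - (w - o) = o := by ring
    rw [e1, e2]
    exact hsq
  · rw [P.L_eq']
    have e1 : w + w' - o - (w - o) = w' := by ring
    have e2 : h - 0 = h := by ring
    rw [e1, e2]
    exact hwb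

theorem iter' (P : PP) (G : Geo) {c0 : ℝ} (h0 : 0 ≤ c0) {w h o : ℤ} (hh : 0 ≤ h) (ho : 0 ≤ o)
    (hsq : c0 ≤ P.L h o) (hw : o ≤ w) {a : ℝ} (ha : 0 ≤ a) (hwa : a ≤ P.L w h) (j : ℕ) :
    a * (c0 * a) ^ j ≤ P.L (w + j * (w - o)) h := by
  induction j with
  | zero => simpa using hwa
  | succ j ih =>
    have h1 : 0 ≤ a * (c0 * a) ^ j := mul_nonneg ha (pow_nonneg (mul_nonneg h0 ha) j)
    have h2 : o ≤ w + j * (w - o) := by
      have : (0 : ℤ) ≤ j * (w - o) := mul_nonneg (Int.natCast_nonneg j) (by omega)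
      omega
    have h3 := chain' P G h0 hh ho hsq h2 hw h1 ha ih hwa
    have e1 : w + (j : ℤ) * (w - o) + w - o = w + ((j + 1 : ℕ) : ℤ) * (w - o) := by
      push_cast
      ring
    rw [e1] at h3
    calc a * (c0 * a) ^ (j + 1) = a * (c0 * a) ^ j * c0 * a := by ring
      _ ≤ _ := h3

/-- (L5), version 2 -/
theorem l5 : L5Stmt2 := by
  intro P c0 a r hc0 ha hr hsq hE
  have h1 := iter' P geo hc0 (w := r + r / 5) (h := r) (o := r + r / 50) (by omega) (by omega)
    hsq (by omega) ha hE 19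
  exact h1.trans (P.L_mono geo (by omega) (by push_cast; omega) le_rfl)

/-- the largest scale in `[20, n]` which is `20` or satisfies `Q` -/
theorem exists_max (Q : ℤ → Prop) {n : ℤ} (hn : 20 ≤ n) :
    ∃ r, 20 ≤ r ∧ r ≤ n ∧ (r = 20 ∨ Q r) ∧ ∀ s, r < s → s ≤ n → ¬ Q s := by
  classical
  obtain ⟨k, rfl⟩ : ∃ k : ℕ, n = 20 + k := ⟨(n - 20).toNat, by omega⟩
  clear hn
  induction k with
  | zero => exact ⟨20, le_rfl, by simp, Or.inl rfl, fun s h1 h2 => by
      exfalso
      push_cast at h2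
      omega⟩
  | succ k ih =>
    by_cases hQ : Q (20 + ((k + 1 : ℕ) : ℤ))
    · exact ⟨20 + ((k + 1 : ℕ) : ℤ), by push_cast; omega, le_rfl, Or.inr hQ,
        fun s h1 h2 => by omega⟩
    · obtain ⟨r, h1, h2, h3, h4⟩ := ih
      refine ⟨r, h1, by push_cast; omega, h3, fun s h5 h6 => ?_⟩
      rcases lt_or_eq_of_le h6 with h7 | h7
      · exact h4 s h5 (by push_cast at h7; omega)
      · rw [h7]; exact hQ

/-- **the last step** -/
theorem fin : FinStmt2 := by
  intro hAll hL4 hL5 c0 c1 hc0 hc1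
  set e0 : ℝ := (c0 / 5000) ^ 6 with he0
  have he0p : 0 < e0 := by positivity
  set b5 : ℝ := e0 * (c0 * e0) ^ 19 with hb5
  have hb5p : 0 < b5 := by positivity
  set m1 : ℝ := min c1 b5 with hm1
  have hm1p : 0 < m1 := lt_min hc1 hb5p
  set d1 : ℝ := m1 * (c0 * m1) ^ 10000 with hd1
  have hd1p : 0 < d1 := by positivity
  set a2 : ℝ := (c0 / 5000) ^ 2 * m1 ^ 4 with ha2
  have ha2p : 0 < a2 := by positivity
  set d2 : ℝ := a2 * (c0 * a2) ^ 19 with hd2
  have hd2p : 0 < d2 := by positivity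
  set cL : ℝ := min d1 d2 with hcL
  have hcLp : 0 < cL := lt_min hd1p hd2p
  refine ⟨min cL (cL ^ 4), lt_min hcLp (by positivity), ?_⟩
  intro P N hsq h80 n hn hnN
  have key : cL ≤ P.L (4 * n) n := by
    obtain ⟨r, hr20, hrn, hr, hmax⟩ := exists_max (fun t => e0 < Eps P t) hn
    have hsr : c0 ≤ P.L r (r + r / 50) := hsq r (by omega) (by omega)
    have hLr : m1 ≤ P.L (4 * r) r := by
      rcases hr with rfl | hr
      · exact (min_le_left _ _).trans h80
      · exact (min_le_right _ _).trans (hL5 P c0 e0 r hc0.le he0p.le hr20 hsr hr.le)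
    by_cases hcase : n < 5000 * r
    · have h1 := iter' P geo hc0.le (w := 4 * r) (h := r) (o := r + r / 50) (by omega) (by omega)
        hsr (by omega) hm1p.le hLr 10000
      have h2 : P.L (4 * r + ((10000 : ℕ) : ℤ) * (4 * r - (r + r / 50))) r ≤ P.L (4 * n) n :=
        P.L_mono geo (by omega) (by push_cast; omega) hrn
      exact (min_le_left _ _).trans (h1.trans h2)
    · push Not at hcase
      have hARM : ARM P (c0 / 5000) (n - 4 * r) r :=
        hAll P c0 r n hc0 (by omega) (fun s h1 h2 => hsq s h1 (by omega))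
          (fun s h1 h2 => not_lt.1 (hmax s h1 h2)) (n - 4 * r) (by omega) (by omega)
      have hA : m1 ^ 4 ≤ P.p (Ann 0 0 r) := P.Ann_ge 0 0 hm1p.le hLr
      have h4 := hL4 P (c0 / 5000) (m1 ^ 4) (n - 4 * r) r r (by positivity) (by positivity)
        (by omega) le_rfl (by omega) (by omega) hARM hA
      have h5 : a2 ≤ Eps P n := by
        refine h4.trans ?_
        unfold Eps
        exact P.L_mono geo (by omega) (by omega) (by omega)
      exact (min_le_right _ _).trans (hL5 P c0 a2 n hc0.le ha2p.le hn (hsq n (by omega) hnN) h5)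
  refine ⟨(min_le_left _ _).trans key, fun p q => (min_le_right _ _).trans ?_⟩
  exact P.Ann_ge p q hcLp.le key

/-- the theorem from `ArmAll2` and `L4Stmt` -/
theorem rsw_of (h : ArmAll2) (h4 : L4Stmt) : RSWStmt2 := fin h h4 l5

end Vale.Agent.P159.RSW.H442
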