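import Vale.Agent.P159.RSW.ArmAll
import Vale.Agent.P159.RSW.Step0
import Vale.Agent.P159.RSW.L4
import Vale.Agent.P159.TM.H442.FinC
import Vale.Agent.P159.TM.H121.Out

/-!
# RSW with input at the top scales only (885 #18290), second source

(SQT) or free arms are needed only for `n / 50 ≤ s ≤ n`: below, near-squares come from the arms of
the top scale by a downward induction with constants which do not deteriorate.
-/

namespace Vale.Agent.P159.RSW.H442

open Vale.Agent.P145.FB Vale.Agent.P159.RSW.H935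

/-- (L2) with two constants -/
theorem l2g : ∀ (P : PP) (p c : ℝ) (B r : ℤ), 0 < p → 0 < c → 1 ≤ r → 2000 * r ≤ B →
    p ≤ P.L (B - B / 50) B → ARM P c (B / 13) r →
    100000 * Eps P (B / 13) ≤ p * c ^ 4 → c ≤ 1 → ARM P (p / 5000) B r := by
  intro P p c B r hp0 hc0 hr hB hL harm0 heps hcle
  by_contra hcon
  have hconW : ¬ ARMW P (p / 5000) B r := fun h => hcon (sym P _ B r (by omega) h)
  obtain ⟨x, y, hx, hxr, hy, hyr, hp⟩ := harm0
  obtain ⟨s, hs⟩ : ∃ s : ℤ, s = B / 13 := ⟨_, rfl⟩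
  obtain ⟨k, hk⟩ : ∃ k : ℤ, k = s / 25 := ⟨_, rfl⟩
  obtain ⟨W, hW⟩ : ∃ W : ℤ, W = B - B / 50 := ⟨_, rfl⟩
  obtain ⟨X, hX⟩ : ∃ X : ℤ, X = W - s := ⟨_, rfl⟩
  rw [← hs] at hxr hyr hp heps
  rw [← hW] at hL
  have heps0 : 0 ≤ Eps P s := P.L_nonneg _ _
  have hc4 : 0 < c ^ 4 := by positivity
  have hc41 : c ^ 4 ≤ 1 := pow_le_one₀ hc0.le hcle
  have heps1 : Eps P s ≤ p / 100000 := by
    have h1 : p * c ^ 4 ≤ p * 1 := mul_le_mul_of_nonneg_left hc41 hp0.le
    linarith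
  -- the four families
  have A1 : P.p (fun S => ∃ i : ℕ, i ≤ 399 ∧ BTc X (X + s) (i * k) (i * k + (s + s / 5)) S) ≤
      ((399 : ℕ) + 1) * (p / 100000) := by
    refine union_le P (fun i => BTc X (X + s) (i * k) (i * k + (s + s / 5))) ?_ 399
    intro i
    have e : P.p (BTc X (X + s) (i * k) (i * k + (s + s / 5))) = Eps P s := by
      rw [P.B_eq', Eps]; congr 1 <;> ring
    rw [e]; exact heps1
  have A2 : P.p (fun S => ∃ i : ℕ, i ≤ 399 ∧
      Av (G2 s r x y X (i * k)) X (X + s) (i * k) (i * k + Ht s) S) ≤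
      ((399 : ℕ) + 1) * (4 * (p / 100000)) := by
    refine union_le P (fun i => Av (G2 s r x y X (i * k)) X (X + s) (i * k) (i * k + Ht s)) ?_ 399
    intro i
    have h2 := l1 P c s r x y X (i * k) hc0.le (by omega) (by omega) hx hxr hy hyr hp
    have h3 : P.p (Av (G2 s r x y X (i * k)) X (X + s) (i * k) (i * k + Ht s)) * c ^ 4 ≤
        4 * (p / 100000) * c ^ 4 := by
      refine h2.trans ?_
      linarith
    exact le_of_mul_le_mul_right h3 hc4
  have hW' : ∀ c : ℤ, P.p (WArm 0 B 0 B (X + x) (cl B r c) r) ≤ p / 5000 := by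
    intro c
    by_contra h
    push Not at h
    refine hconW ⟨X + x, cl B r c, ?_, ?_, ?_, ?_, h.le⟩
    · unfold cl; omega
    · unfold cl; omega
    · omega
    · omega
  have A3 : P.p (fun S => ∃ i : ℕ, i ≤ 399 ∧
      WArm 0 B 0 B (X + x) (cl B r (i * k + s - y - r - s / 2)) r S) ≤
      ((399 : ℕ) + 1) * (p / 5000) :=
    union_le P (fun i => WArm 0 B 0 B (X + x) (cl B r (i * k + s - y - r - s / 2)) r)
      (fun i => hW' _) 399
  have A4 : P.p (fun S => ∃ i : ℕ, i ≤ 399 ∧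
      WArm 0 B 0 B (X + x) (cl B r (i * k + s - y - r)) r S) ≤ ((399 : ℕ) + 1) * (p / 5000) :=
    union_le P (fun i => WArm 0 B 0 B (X + x) (cl B r (i * k + s - y - r)) r)
      (fun i => hW' _) 399
  have key : P.p (LRc 0 W 0 B) ≤ _ := P.mono _ _
    (fun S hS => det2 B r s k x y W X hr hB hs hk hW hX S hS)
  have key2 := key.trans ((P.or_le _ _).trans (add_le_add (P.or_le _ _) (P.or_le _ _)))
  have hL' : p ≤ P.p (LRc 0 W 0 B) := hL
  have fin := hL'.trans key2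
  push_cast at A1 A2 A3 A4
  linarith

/-- arms of the gaps of size `r` at all scales in `[20 r, n]`, near-squares only above `19 r` -/
theorem armMid (P : PP) {q : ℝ} (hq : 0 < q) {r n : ℤ} (hr : 1 ≤ r)
    (hsq : ∀ s, 19 * r ≤ s → s ≤ n → q ≤ P.L s (s + s / 50))
    (heps : ∀ s, r < s → s ≤ n → Eps P s ≤ (q / 5000) ^ 6) :
    ∀ B, 20 * r ≤ B → B ≤ n → ARM P (q / 5000) B r := by
  have key : ∀ m : ℕ, ∀ B : ℤ, B ≤ m → 20 * r ≤ B → B ≤ n → ARM P (q / 5000) B r := by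
    intro m
    induction m with
    | zero =>
      intro B h1 h2' _
      exfalso
      push_cast at h1
      omega
    | succ m ih =>
      intro B hBn hB hBN
      have hW : q ≤ P.L (B - B / 50) B := by
        have h4 := hsq (B - B / 50) (by omega) (by omega)
        refine h4.trans (P.L_mono geo (by omega) le_rfl (by omega))
      rcases lt_or_ge B (2000 * r) with h5 | h5
      · exact l3Stmt2 P q B r hq hr hB h5 hW
      · refine l2Stmt2 P q B r hq (hW.trans (P.le_one _)) hr h5 hW ?_ ?_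
        · exact ih (B / 13) (by push_cast at hBn; omega) (by omega) (by omega)
        · exact heps (B / 13) (by omega) (by omega)
  intro B hB hBN
  exact key B.toNat B (by omega) hB hBN

/-- at the top the constant is the one of the top scale -/
theorem armTop (P : PP) {p q : ℝ} (hp : 0 < p) (hq : 0 < q) {r n : ℤ} (hr : 1 ≤ r)
    (hn : 20 * r ≤ n) (hsq : ∀ s, 19 * r ≤ s → s ≤ n → q ≤ P.L s (s + s / 50))
    (heps : ∀ s, r < s → s ≤ n → Eps P s ≤ (q / 5000) ^ 6)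
    (heps2 : ∀ s, r < s → s ≤ n → 100000 * Eps P s ≤ p * (q / 5000) ^ 4)
    (htop : p ≤ P.L (n - n / 50) n) : ARM P (p / 5000) n r := by
  have hq1 : q ≤ 1 := (hsq n (by omega) le_rfl).trans (P.le_one _)
  rcases lt_or_ge n (2000 * r) with h5 | h5
  · exact l3Stmt2 P p n r hp hr hn h5 htop
  · exact l2g P p (q / 5000) n r hp (by positivity) hr h5 htop
      (armMid P hq hr hsq heps (n / 13) (by omega) (by omega)) (heps2 (n / 13) (by omega) (by omega))
      (by linarith)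

/-- local arm from a box -/
def Ol (t N : ℤ) (S : Set (ℤ × ℤ)) : Prop :=
  ∃ x y, NC (S ∩ rc (-N) N (-N) N) x y ∧ (x ∈ rc (-t) t (-t) t ∧ 4 * t ≤ TM.H121.nrm y)

theorem IL_Ol (t N : ℤ) : IL (Ol t N) :=
  IL_ex _ (rc_bdd (-N) N (-N) N) (fun x y => x ∈ rc (-t) t (-t) t ∧ 4 * t ≤ TM.H121.nrm y)

theorem Ol.out {t N : ℤ} {S : Set (ℤ × ℤ)} (h : Ol t N S) : TM.H121.Out t S := by
  obtain ⟨x, y, h1, h2, h3⟩ := h
  exact ⟨x, y, h1.mono Set.inter_subset_left, h2, h3⟩

theorem out_of_arm (P : PP) {c : ℝ} {B t : ℤ} (_ht : 1 ≤ t) (_hB : 40 * t ≤ B)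
    (h : ARM P c B (2 * t)) : c ≤ P.p (TM.H121.Out t) := by
  obtain ⟨x, y, hx, hxr, hy, hyr, hp⟩ := h
  refine hp.trans ?_
  have e1 : P.p (fun S => Ol t (4 * B) {z | (z.1 + 2 * (x + t), z.2 + 2 * (y + t)) ∈ S}) =
      P.p (Ol t (4 * B)) := P.shift (x + t) (y + t) _ (IL_Ol t (4 * B))
  have e2 : P.p (Ol t (4 * B)) ≤ P.p (TM.H121.Out t) := P.mono _ _ (fun S hS => hS.out)
  refine le_trans (P.mono _ _ ?_) (e1.le.trans e2)
  rintro S ⟨u, v, huv, hu, hv⟩
  have hu' : u ∈ rc x (x + 2 * t) y (y + 2 * t) := hu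
  rw [mem_rc] at hu'
  have hmap : NC ({z | (z.1 + 2 * (x + t), z.2 + 2 * (y + t)) ∈ S} ∩
      rc (-(4 * B)) (4 * B) (-(4 * B)) (4 * B))
      (u.1 + 2 * (-(x + t)), u.2 + 2 * (-(y + t))) (v.1 + 2 * (-(x + t)), v.2 + 2 * (-(y + t))) := by
    refine NC.map_ (T := fun z => (z.1 + 2 * (-(x + t)), z.2 + 2 * (-(y + t))))
      (nn_shift (-(x + t)) (-(y + t))) ?_ huv
    rintro z ⟨hz1, hz2⟩
    rw [mem_rc] at hz2
    refine ⟨?_, ?_⟩
    · show (z.1 + 2 * (-(x + t)) + 2 * (x + t), z.2 + 2 * (-(y + t)) + 2 * (y + t)) ∈ S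
      have e3 : z.1 + 2 * (-(x + t)) + 2 * (x + t) = z.1 := by ring
      have e4 : z.2 + 2 * (-(y + t)) + 2 * (y + t) = z.2 := by ring
      rw [e3, e4]
      exact hz1
    · rw [mem_rc]
      dsimp only
      omega
  refine ⟨_, _, hmap, ?_, ?_⟩
  · rw [mem_rc]
    dsimp only
    omega
  · unfold TM.H121.nrm
    dsimp only
    omega

/-- Step 0 at one scale -/
theorem step_loc (P : PP) {p1 c1 : ℝ} (_hp1 : 0 < p1) (hc1 : 0 < c1) (hc : c1 ≤ P.L 1 0) {t : ℤ}
    (ht : 1 ≤ t) (hN : p1 ≤ P.L t (4 * t)) :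
    min (p1 / 4000) (c1 ^ 400) ≤ P.L t (t + t / 50) := by
  rcases lt_or_ge t 100 with hlt | hge
  · refine (min_le_right _ _).trans ?_
    obtain ⟨n, hn⟩ := Int.eq_ofNat_of_zero_le (show 0 ≤ t - 1 by omega)
    have hle1 : c1 ≤ 1 := hc.trans (P.le_one _)
    have e : t = (n : ℤ) + 1 := by omega
    have h1 := L_seg P hc1.le hc n
    have h2 : c1 ^ 400 ≤ c1 ^ (n + 1) := pow_le_pow_of_le_one hc1.le hle1 (by omega)
    have h3 : P.L ((n : ℤ) + 1) 0 ≤ P.L t (t + t / 50) := by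
      rw [e]
      exact P.L_mono geo (by omega) le_rfl (by omega)
    linarith
  · refine (min_le_left _ _).trans ?_
    obtain ⟨k, hk⟩ : ∃ k, k = t / 100 := ⟨_, rfl⟩
    have hk1 : 1 ≤ k := by omega
    have hn : 4 * t < ((800 : ℕ) + 1) * k := by push_cast; omega
    set b := P.L t (t + t / 50) with hb
    have h2 := P.mono (LRc 0 t 0 (4 * t)) (fun S => ∃ i : ℕ, i ≤ 800 ∧
      (LRc 0 t (i * k) (i * k + (t + 2 * k)) S ∨ BTc 0 t ((i + 1) * k) ((i + 1) * k + t) S))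
      (fun S hS => dich hk1 (by omega) hn hS)
    have h3 := ex_le P (fun i S => LRc 0 t (i * k) (i * k + (t + 2 * k)) S ∨
      BTc 0 t ((i + 1) * k) ((i + 1) * k + t) S) (a := 2 * b) 800 (by
        intro i _
        refine (P.or_le _ _).trans ?_
        have a1 : P.p (LRc 0 t (i * k) (i * k + (t + 2 * k))) ≤ b := by
          rw [P.L_eq']
          exact P.L_mono geo (by omega) (by omega) (by omega)
        have a2 : P.p (BTc 0 t ((i + 1) * k) ((i + 1) * k + t)) ≤ b := by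
          rw [P.B_eq']
          exact P.L_mono geo (by omega) (by omega) (by omega)
        have a3 : P.p (fun S => LRc 0 t (i * k) (i * k + (t + 2 * k)) S) =
          P.p (LRc 0 t (i * k) (i * k + (t + 2 * k))) := rfl
        have a4 : P.p (fun S => BTc 0 t ((i + 1) * k) ((i + 1) * k + t) S) =
          P.p (BTc 0 t ((i + 1) * k) ((i + 1) * k + t)) := rfl
        rw [a3, a4]
        linarith)
    have h4 : P.p (LRc 0 t 0 (4 * t)) = P.L t (4 * t) := rfl
    rw [h4] at h2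
    have hb0 : 0 ≤ b := P.L_nonneg _ _
    have h5 := h2.trans h3
    push_cast at h5
    linarith

/-- the constant of the lower scales -/
noncomputable def qD (p c1 : ℝ) : ℝ := min (p / 5000 / 4 / 4000) (c1 ^ 400)

theorem qD_pos {p c1 : ℝ} (hp : 0 < p) (hc1 : 0 < c1) : 0 < qD p c1 :=
  lt_min (by positivity) (by positivity)

theorem qD_le {p c1 : ℝ} (hp : 0 < p) : qD p c1 ≤ p := by
  refine (min_le_left _ _).trans ?_
  linarith

/-- **downward induction** -/
theorem down (P : PP) {p c1 : ℝ} (hp : 0 < p) (hc1 : 0 < c1) (hc : c1 ≤ P.L 1 0) {n R : ℤ}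
    (hR : 1 ≤ R) (hwin : ∀ s, 1 ≤ s → s ≤ n → n ≤ 50 * s → p ≤ P.L s (s + s / 50))
    (heps : ∀ s, R < s → s ≤ n → Eps P s ≤ (qD p c1 / 5000) ^ 6)
    (heps2 : ∀ s, R < s → s ≤ n → 100000 * Eps P s ≤ p * (qD p c1 / 5000) ^ 4) :
    ∀ s, R ≤ s → s ≤ n → qD p c1 ≤ P.L s (s + s / 50) := by
  have hq : 0 < qD p c1 := qD_pos hp hc1
  have key : ∀ m : ℕ, ∀ s : ℤ, n - s ≤ m → R ≤ s → s ≤ n → qD p c1 ≤ P.L s (s + s / 50) := by
    intro m
    induction m with
    | zero =>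
      intro s h1 h2 h3
      exact (qD_le hp).trans (hwin s (by omega) h3 (by push_cast at h1; omega))
    | succ m ih =>
      intro s h1 h2 h3
      rcases le_or_gt n (50 * s) with h4 | h4
      · exact (qD_le hp).trans (hwin s (by omega) h3 h4)
      · have htop : p ≤ P.L (n - n / 50) n := by
          have h5 := hwin (n - n / 50) (by omega) (by omega) (by omega)
          exact h5.trans (P.L_mono geo (by omega) le_rfl (by omega))
        have harm : ARM P (p / 5000) n (2 * s) :=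
          armTop P hp hq (by omega) (by omega)
            (fun t ht1 ht2 => ih t (by push_cast at h1; omega) (by omega) ht2)
            (fun t ht1 ht2 => heps t (by omega) ht2) (fun t ht1 ht2 => heps2 t (by omega) ht2) htop
        have hout := out_of_arm P (by omega) (by omega) harm
        have heasy := TM.H121.easy_of_out P (by omega) hout
        exact step_loc P (by positivity) hc1 hc (by omega) heasy
  intro s h1 h2
  exact key (n - s).toNat s (by omega) h1 h2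

/-- **RSW from near-squares in the window `[n / 50, n]` and one edge.** -/
theorem rsw_top : ∀ p0 c1 : ℝ, 0 < p0 → 0 < c1 → ∃ c : ℝ, 0 < c ∧ ∀ (P : PP) (n : ℤ), 20 ≤ n →
    c1 ≤ P.L 1 0 → (∀ s, 1 ≤ s → s ≤ n → n ≤ 50 * s → p0 ≤ P.L s (s + s / 50)) →
    c ≤ P.L (4 * n) n ∧ ∀ p q : ℤ, c ≤ P.p (Ann p q n) := by
  intro p0 c1 hp0 hc1
  obtain ⟨c0, hc0e⟩ : ∃ c0 : ℝ, c0 = qD p0 c1 := ⟨_, rfl⟩
  have hc0 : 0 < c0 := by rw [hc0e]; exact qD_pos hp0 hc1
  obtain ⟨e0, he0⟩ : ∃ e0 : ℝ, e0 = min ((c0 / 5000) ^ 6) (p0 * (c0 / 5000) ^ 4 / 100000) :=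
    ⟨_, rfl⟩
  have he0p : 0 < e0 := by rw [he0]; exact lt_min (by positivity) (by positivity)
  have he0a : e0 ≤ (c0 / 5000) ^ 6 := by rw [he0]; exact min_le_left _ _
  have he0b : 100000 * e0 ≤ p0 * (c0 / 5000) ^ 4 := by
    have h1 : e0 ≤ p0 * (c0 / 5000) ^ 4 / 100000 := by rw [he0]; exact min_le_right _ _
    linarith
  obtain ⟨b5, hb5⟩ : ∃ b5 : ℝ, b5 = e0 * (c0 * e0) ^ 19 := ⟨_, rfl⟩
  have hb5p : 0 < b5 := by rw [hb5]; positivity
  obtain ⟨m1, hm1⟩ : ∃ m1 : ℝ, m1 = min (c1 ^ 80) b5 := ⟨_, rfl⟩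
  have hm1p : 0 < m1 := by rw [hm1]; exact lt_min (by positivity) hb5p
  obtain ⟨d1, hd1⟩ : ∃ d1 : ℝ, d1 = m1 * (c0 * m1) ^ 10000 := ⟨_, rfl⟩
  have hd1p : 0 < d1 := by rw [hd1]; positivity
  obtain ⟨a2, ha2⟩ : ∃ a2 : ℝ, a2 = (c0 / 5000) ^ 2 * m1 ^ 4 := ⟨_, rfl⟩
  have ha2p : 0 < a2 := by rw [ha2]; positivity
  obtain ⟨d2, hd2⟩ : ∃ d2 : ℝ, d2 = a2 * (c0 * a2) ^ 19 := ⟨_, rfl⟩
  have hd2p : 0 < d2 := by rw [hd2]; positivity
  obtain ⟨cL, hcL⟩ : ∃ cL : ℝ, cL = min d1 d2 := ⟨_, rfl⟩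
  have hcLp : 0 < cL := by rw [hcL]; exact lt_min hd1p hd2p
  refine ⟨min cL (cL ^ 4), lt_min hcLp (by positivity), ?_⟩
  intro P n hn hedge hwin
  have key : cL ≤ P.L (4 * n) n := by
    obtain ⟨r, hr20, hrn, hr, hmax⟩ := exists_max (fun t => e0 < Eps P t) hn
    have heps : ∀ s, r < s → s ≤ n → Eps P s ≤ e0 := fun s h1 h2 => not_lt.1 (hmax s h1 h2)
    have hsq : ∀ s, r ≤ s → s ≤ n → c0 ≤ P.L s (s + s / 50) := by
      intro s h1 h2
      rw [hc0e]
      refine down P hp0 hc1 hedge (R := r) (by omega) hwin ?_ ?_ s h1 h2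
      · intro t h3 h4
        rw [← hc0e]
        exact (heps t h3 h4).trans he0a
      · intro t h3 h4
        rw [← hc0e]
        have := heps t h3 h4
        linarith
    have hsr : c0 ≤ P.L r (r + r / 50) := hsq r le_rfl hrn
    have hLr : m1 ≤ P.L (4 * r) r := by
      rcases hr with rfl | hr
      · have h1 := L_seg P hc1.le hedge 79
        have h2 : P.L (((79 : ℕ) : ℤ) + 1) 0 ≤ P.L (4 * 20) 20 :=
          P.L_mono geo (by norm_num) (by norm_num) (by norm_num)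
        rw [hm1]
        exact (min_le_left _ _).trans (h1.trans h2)
      · rw [hm1, hb5]
        exact (min_le_right _ _).trans (l5 P c0 e0 r hc0.le he0p.le hr20 hsr hr.le)
    by_cases hcase : n < 5000 * r
    · have h1 := iter' P geo hc0.le (w := 4 * r) (h := r) (o := r + r / 50) (by omega) (by omega)
        hsr (by omega) hm1p.le hLr 10000
      have h2 : P.L (4 * r + ((10000 : ℕ) : ℤ) * (4 * r - (r + r / 50))) r ≤ P.L (4 * n) n :=
        P.L_mono geo (by omega) (by push_cast; omega) hrn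
      rw [← hd1] at h1
      rw [hcL]
      exact (min_le_left _ _).trans (h1.trans h2)
    · push Not at hcase
      have hARM : ARM P (c0 / 5000) (n - 4 * r) r :=
        armMid P hc0 (by omega) (fun s h1 h2 => hsq s (by omega) h2)
          (fun s h1 h2 => (heps s h1 h2).trans he0a) (n - 4 * r) (by omega) (by omega)
      have hA : m1 ^ 4 ≤ P.p (Ann 0 0 r) := P.Ann_ge 0 0 hm1p.le hLr
      have h4 := l4 P (c0 / 5000) (m1 ^ 4) (n - 4 * r) r r (by positivity) (by positivity)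
        (by omega) le_rfl (by omega) (by omega) hARM hA
      have h5 : a2 ≤ Eps P n := by
        rw [ha2]
        refine h4.trans ?_
        unfold Eps
        exact P.L_mono geo (by omega) (by omega) (by omega)
      have h6 := l5 P c0 a2 n hc0.le ha2p.le hn (hsq n (by omega) le_rfl) h5
      rw [← hd2] at h6
      rw [hcL]
      exact (min_le_right _ _).trans h6
  refine ⟨(min_le_left _ _).trans key, fun p q => (min_le_right _ _).trans ?_⟩
  exact P.Ann_ge p q hcLp.le key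

/-- **RSW from free arms in the window `[n / 50, n]` and one edge.** -/
theorem rsw_arms : ∀ p1 c1 : ℝ, 0 < p1 → 0 < c1 → ∃ c : ℝ, 0 < c ∧ ∀ (P : PP) (n : ℤ), 20 ≤ n →
    c1 ≤ P.L 1 0 → (∀ t, 1 ≤ t → t ≤ n → n ≤ 50 * t → p1 ≤ P.p (TM.H121.Tr t)) →
    c ≤ P.L (4 * n) n ∧ ∀ p q : ℤ, c ≤ P.p (Ann p q n) := by
  intro p1 c1 hp1 hc1
  obtain ⟨c, hc, h⟩ := rsw_top (min (p1 / 4 / 4000) (c1 ^ 400)) c1
    (lt_min (by positivity) (by positivity)) hc1
  refine ⟨c, hc, fun P n hn hedge harm => h P n hn hedge fun s h1 h2 h3 => ?_⟩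
  exact step_loc P (by positivity) hc1 hedge h1 (TM.H121.easy_of_tr P h1 (harm s h1 h2 h3))

end Vale.Agent.P159.RSW.H442
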