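import Vale.Agent.P145.FB.Geo
import Vale.Agent.P145.FB.Ev

/-!
P159 / T1, node A6 (935 #17529), row R1: a left-right crossing of a box in a strip which avoids a
prescribed gap `g` meets one of the two open paths which leave the gap upwards and downwards; with
two gaps one gets an open path of large vertical extent in the strip (deterministic part of (L1)).
Letters of `P145/FB`: the fine lattice, `NC`, `rc`, `BTc`.
-/

namespace Vale.Agent.P159.TM.H442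

open Vale.Agent.P145.FB Vale.Agent.P153 Vale.Agent.P153.Topo

/-- the vertical strip `[2a, 2b] × ℤ` -/
def st (a b : ℤ) : Set (ℤ × ℤ) := {z | 2 * a ≤ z.1 ∧ z.1 ≤ 2 * b}

theorem mem_st {a b : ℤ} {z : ℤ × ℤ} : z ∈ st a b ↔ 2 * a ≤ z.1 ∧ z.1 ≤ 2 * b := Iff.rfl

theorem rc_sub_st {a b c d p q : ℤ} (h1 : p ≤ a) (h2 : b ≤ q) : rc a b c d ⊆ st p q := by
  intro z hz
  rw [mem_rc] at hz
  rw [mem_st]
  omega

/-- horizontal segments -/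
theorem nc_hor (S : Set (ℤ × ℤ)) (a b c : ℤ) (h : ∀ u : ℤ, a ≤ u → u ≤ b → (u, c) ∈ S)
    (hab : a ≤ b) : NC S (a, c) (b, c) := by
  obtain ⟨n, rfl⟩ : ∃ n : ℕ, b = a + n := ⟨(b - a).toNat, by omega⟩
  clear hab
  induction n with
  | zero =>
    have : a + ((0 : ℕ) : ℤ) = a := by simp
    rw [this]
    exact NC.refl (h a le_rfl (by omega))
  | succ n ih =>
    have h1 := ih (fun u hu1 hu2 => h u hu1 (by push_cast; omega))
    refine h1.tail (z := (a + ((n + 1 : ℕ) : ℤ), c)) ?_ (h _ (by push_cast; omega) le_rfl)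
    exact Or.inl ⟨rfl, Or.inl (by push_cast; ring)⟩

/-- vertical segments -/
theorem nc_ver (S : Set (ℤ × ℤ)) (a c d : ℤ) (h : ∀ u : ℤ, c ≤ u → u ≤ d → (a, u) ∈ S)
    (hcd : c ≤ d) : NC S (a, c) (a, d) := by
  obtain ⟨n, rfl⟩ : ∃ n : ℕ, d = c + n := ⟨(d - c).toNat, by omega⟩
  clear hcd
  induction n with
  | zero =>
    have : c + ((0 : ℕ) : ℤ) = c := by simp
    rw [this]
    exact NC.refl (h c le_rfl (by omega))
  | succ n ih =>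
    have h1 := ih (fun u hu1 hu2 => h u hu1 (by push_cast; omega))
    refine h1.tail (z := (a, c + ((n + 1 : ℕ) : ℤ))) ?_ (h _ (by push_cast; omega) le_rfl)
    exact Or.inr ⟨rfl, Or.inl (by push_cast; ring)⟩

/-- boxes are connected -/
theorem nc_rc {a b c d : ℤ} {x y : ℤ × ℤ} (hx : x ∈ rc a b c d) (hy : y ∈ rc a b c d) :
    NC (rc a b c d) x y := by
  rw [mem_rc] at hx hy
  have h1 : NC (rc a b c d) (x.1, x.2) (y.1, x.2) := by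
    rcases le_total x.1 y.1 with h | h
    · exact nc_hor _ _ _ _ (fun u h1 h2 => by rw [mem_rc]; simp only; omega) h
    · exact (nc_hor _ _ _ _ (fun u h1 h2 => by rw [mem_rc]; simp only; omega) h).symm
  have h2 : NC (rc a b c d) (y.1, x.2) (y.1, y.2) := by
    rcases le_total x.2 y.2 with h | h
    · exact nc_ver _ _ _ _ (fun u h1 h2 => by rw [mem_rc]; simp only; omega) h
    · exact (nc_ver _ _ _ _ (fun u h1 h2 => by rw [mem_rc]; simp only; omega) h).symm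
  exact h1.trans h2

/-- **R1: a crossing which avoids the gap meets one of the two arms of the gap.** -/
theorem gap1 {S g Γ : Set (ℤ × ℤ)} {X1 X2 Y1 Y2 : ℤ} (hY : Y1 ≤ Y2) (hgW : g ⊆ st X1 X2)
    (hgc : ∀ u ∈ g, ∀ v ∈ g, NC g u v) {n nT s sB x x' : ℤ × ℤ}
    (hN : NC (S ∩ st X1 X2) n nT) (hng : n ∈ g) (hnT : 2 * Y2 ≤ nT.2)
    (hS : NC (S ∩ st X1 X2) s sB) (hsg : s ∈ g) (hsB : sB.2 ≤ 2 * Y1)
    (hΓ : Γ ⊆ S ∩ rc X1 X2 Y1 Y2) (hΓg : ∀ z ∈ Γ, z ∉ g) (hx : NC Γ x x')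
    (hxa : x.1 = 2 * X1) (hxb : x'.1 = 2 * X2) :
    NC (S ∩ st X1 X2) x n ∨ NC (S ∩ st X1 X2) x s := by
  set A : Set (ℤ × ℤ) := {z | NC (S ∩ st X1 X2) n z} with hA
  set B : Set (ℤ × ℤ) := {z | NC (S ∩ st X1 X2) s z} with hB
  set C : Set (ℤ × ℤ) := (A ∪ g) ∪ B with hC
  have hAC : A ⊆ C := fun z hz => Or.inl (Or.inl hz)
  have hgC : g ⊆ C := fun z hz => Or.inl (Or.inr hz)
  have hBC : B ⊆ C := fun z hz => Or.inr hz
  have hCW : C ⊆ st X1 X2 := by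
    rintro z ((hz | hz) | hz)
    · exact hz.right_mem.2
    · exact hgW hz
    · exact hz.right_mem.2
  have h1 : NC C n nT := hN.cluster.mono hAC
  have h2 : NC C s sB := hS.cluster.mono hBC
  have h3 : NC C s n := (hgc s hsg n hng).mono hgC
  have h4 : NC C sB nT := (h2.symm.trans h3).trans h1
  obtain ⟨z, w, hz, hw, hzw, _, _⟩ := h4.exit (f := Prod.snd) nn_snd (c := 2 * Y1) (d := 2 * Y2)
    (by omega) hsB hnT
  obtain ⟨v, hv1, hv2⟩ := ncross (S := Γ) (T := C ∩ {u | 2 * Y1 ≤ u.2 ∧ u.2 ≤ 2 * Y2})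
    (a := 2 * X1) (b := 2 * X2) (c := 2 * Y1) (d := 2 * Y2)
    (fun u hu => (hΓ hu).2)
    (by
      rintro u ⟨hu1, hu2, hu3⟩
      have hu4 := hCW hu1
      rw [mem_st] at hu4
      exact ⟨hu4.1, hu4.2, hu2, hu3⟩)
    hx hxa hxb hzw hz hw
  have hsub : Γ ⊆ S ∩ st X1 X2 := fun u hu =>
    ⟨(hΓ hu).1, rc_sub_st le_rfl le_rfl (hΓ hu).2⟩
  have hxv : NC (S ∩ st X1 X2) x v := hv1.mono hsub
  rcases hv2.right_mem.1 with (h | h) | h
  · exact Or.inl (hxv.trans (NC.symm h))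
  · exact absurd h (hΓg v hv1.right_mem)
  · exact Or.inr (hxv.trans (NC.symm h))

/-- a path of the strip with large vertical extent gives a crossing -/
theorem bt_of {S : Set (ℤ × ℤ)} {X1 X2 c d : ℤ} (hcd : c ≤ d) {x y : ℤ × ℤ}
    (h : NC (S ∩ st X1 X2) x y) (hx : x.2 ≤ 2 * c) (hy : 2 * d ≤ y.2) : BTc X1 X2 c d S := by
  obtain ⟨z, w, hz, hw, hzw, _, _⟩ := h.exit (f := Prod.snd) nn_snd (c := 2 * c) (d := 2 * d)
    (by omega) hx hy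
  refine ⟨z, w, hzw.mono ?_, hz, hw⟩
  rintro u ⟨⟨hu1, hu2⟩, hu3, hu4⟩
  rw [mem_st] at hu2
  exact ⟨hu1, by rw [mem_rc]; omega⟩

/-- a left-right crossing of `rc X1 X2 Y1 Y2` which avoids `G` -/
def Av (X1 X2 Y1 Y2 : ℤ) (G : Set (ℤ × ℤ)) (S : Set (ℤ × ℤ)) : Prop :=
  ∃ x y, NC (S ∩ (rc X1 X2 Y1 Y2 \ G)) x y ∧ x.1 = 2 * X1 ∧ y.1 = 2 * X2

theorem IL_Av (X1 X2 Y1 Y2 : ℤ) (G : Set (ℤ × ℤ)) : IL (Av X1 X2 Y1 Y2 G) :=
  IL_ex _ (fun z hz => rc_bdd X1 X2 Y1 Y2 z hz.1) (fun x y => x.1 = 2 * X1 ∧ y.1 = 2 * X2)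

/-- an open path of the box `rc a b c d` from `G` to the height `2h` -/
def Ar (a b c d : ℤ) (G : Set (ℤ × ℤ)) (h : ℤ) (S : Set (ℤ × ℤ)) : Prop :=
  ∃ x y, NC (S ∩ rc a b c d) x y ∧ x ∈ G ∧ y.2 = 2 * h

theorem IL_Ar (a b c d : ℤ) (G : Set (ℤ × ℤ)) (h : ℤ) : IL (Ar a b c d G h) :=
  IL_ex _ (rc_bdd a b c d) (fun x y => x ∈ G ∧ y.2 = 2 * h)

/-- **deterministic part of (L1)**: two gaps in one strip, arms up to `tN`, `tN'` and down to `tS`,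
`tS'`; the boxes of the arms are any boxes of the strip -/
theorem L1det {S : Set (ℤ × ℤ)} {X1 X2 Y1 Y2 : ℤ} (hY : Y1 ≤ Y2)
    {p1 p2 q1 q2 p1' p2' q1' q2' : ℤ} (hp1 : X1 ≤ p1) (hp2 : p2 ≤ X2) (hp1' : X1 ≤ p1')
    (hp2' : p2' ≤ X2) {tN tS tN' tS' : ℤ}
    {a1 b1 c1 d1 a2 b2 c2 d2 a3 b3 c3 d3 a4 b4 c4 d4 : ℤ}
    (e1 : X1 ≤ a1) (f1 : b1 ≤ X2) (e2 : X1 ≤ a2) (f2 : b2 ≤ X2)
    (e3 : X1 ≤ a3) (f3 : b3 ≤ X2) (e4 : X1 ≤ a4) (f4 : b4 ≤ X2)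
    (hN : Ar a1 b1 c1 d1 (rc p1 p2 q1 q2) tN S) (hS : Ar a2 b2 c2 d2 (rc p1 p2 q1 q2) tS S)
    (hN' : Ar a3 b3 c3 d3 (rc p1' p2' q1' q2') tN' S)
    (hS' : Ar a4 b4 c4 d4 (rc p1' p2' q1' q2') tS' S)
    (k1 : Y2 ≤ tN) (k2 : Y2 ≤ tN') (k3 : tS ≤ Y1) (k4 : tS' ≤ Y1)
    (l1 : q2 ≤ tN') (l2 : tS ≤ q1')
    (hG : Av X1 X2 Y1 Y2 (rc p1 p2 q1 q2 ∪ rc p1' p2' q1' q2') S) :
    BTc X1 X2 q2 tN' S ∨ BTc X1 X2 tS q1' S ∨ BTc X1 X2 tS' tN S ∨ BTc X1 X2 tS tN' S := by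
  obtain ⟨x, x', hx, hxa, hxb⟩ := hG
  obtain ⟨n, nT, hn, hng, hnT⟩ := hN
  obtain ⟨s, sB, hs, hsg, hsB⟩ := hS
  obtain ⟨n', nT', hn', hng', hnT'⟩ := hN'
  obtain ⟨s', sB', hs', hsg', hsB'⟩ := hS'
  have m1 : NC (S ∩ st X1 X2) n nT :=
    hn.mono (Set.inter_subset_inter_right S (rc_sub_st e1 f1))
  have m2 : NC (S ∩ st X1 X2) s sB :=
    hs.mono (Set.inter_subset_inter_right S (rc_sub_st e2 f2))
  have m3 : NC (S ∩ st X1 X2) n' nT' :=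
    hn'.mono (Set.inter_subset_inter_right S (rc_sub_st e3 f3))
  have m4 : NC (S ∩ st X1 X2) s' sB' :=
    hs'.mono (Set.inter_subset_inter_right S (rc_sub_st e4 f4))
  have r1 := gap1 (S := S) (g := rc p1 p2 q1 q2)
    (Γ := S ∩ (rc X1 X2 Y1 Y2 \ (rc p1 p2 q1 q2 ∪ rc p1' p2' q1' q2'))) hY
    (rc_sub_st hp1 hp2) (fun u hu v hv => nc_rc hu hv) m1 hng (by omega) m2 hsg (by omega)
    (fun z hz => ⟨hz.1, hz.2.1⟩) (fun z hz hz' => hz.2.2 (Or.inl hz')) hx hxa hxb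
  have r2 := gap1 (S := S) (g := rc p1' p2' q1' q2')
    (Γ := S ∩ (rc X1 X2 Y1 Y2 \ (rc p1 p2 q1 q2 ∪ rc p1' p2' q1' q2'))) hY
    (rc_sub_st hp1' hp2') (fun u hu v hv => nc_rc hu hv) m3 hng' (by omega) m4 hsg' (by omega)
    (fun z hz => ⟨hz.1, hz.2.1⟩) (fun z hz hz' => hz.2.2 (Or.inr hz')) hx hxa hxb
  rw [mem_rc] at hng hsg hng' hsg'
  rcases r1 with r1 | r1
  · rcases r2 with r2 | r2
    · -- (N, N')
      left
      exact bt_of l1 ((r1.symm.trans r2).trans m3) (by omega) (by omega)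
    · -- (N, S')
      right; right; left
      exact bt_of (by omega) ((m4.symm.trans (r2.symm.trans r1)).trans m1) (by omega) (by omega)
  · rcases r2 with r2 | r2
    · -- (S, N')
      right; right; right
      exact bt_of (by omega) ((m2.symm.trans (r1.symm.trans r2)).trans m3) (by omega) (by omega)
    · -- (S, S')
      right; left
      exact bt_of l2 (m2.symm.trans (r1.symm.trans r2)) (by omega) (by omega)

end Vale.Agent.P159.TM.H442
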