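import Mathlib

/-!
P159, row E7: adding a quadratic mass form.  `Zc W g = ∑' h, W h * cos ⟨g, h⟩`.
-/

open MeasureTheory Real

namespace Vale.Agent.P159.TM.H442

variable {V : Type*} [Fintype V]

/-- the pairing of a real vector with an integer height configuration -/
noncomputable def dt (g : V → ℝ) (h : V → ℤ) : ℝ := ∑ x, g x * (h x : ℝ)

/-- the characteristic sum (cosine form) of the weight `W` -/
noncomputable def Zc (W : (V → ℤ) → ℝ) (g : V → ℝ) : ℝ := ∑' h, W h * Real.cos (dt g h)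

theorem dt_add (g u : V → ℝ) (h : V → ℤ) : dt (g + u) h = dt g h + dt u h := by
  simp [dt, add_mul, Finset.sum_add_distrib]

theorem dt_smul (t : ℝ) (g : V → ℝ) (h : V → ℤ) : dt (t • g) h = t * dt g h := by
  simp [dt, Finset.mul_sum, mul_assoc]

theorem dt_neg (g : V → ℝ) (h : V → ℤ) : dt (-g) h = - dt g h := by
  simp [dt]

theorem dt_sub (g u : V → ℝ) (h : V → ℤ) : dt (g - u) h = dt g h - dt u h := by
  rw [sub_eq_add_neg, dt_add, dt_neg, sub_eq_add_neg]

@[simp] theorem dt_zero (h : V → ℤ) : dt (0 : V → ℝ) h = 0 := by simp [dt]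

theorem Zc_zero (W : (V → ℤ) → ℝ) : Zc W 0 = ∑' h, W h := by simp [Zc]

theorem Zc_neg (W : (V → ℤ) → ℝ) (g : V → ℝ) : Zc W (-g) = Zc W g := by
  simp [Zc, dt_neg]

/-- The (GIN) package for one weight. -/
structure Good (W : (V → ℤ) → ℝ) : Prop where
  nonneg : ∀ h, 0 ≤ W h
  summable : Summable W
  pos : ∀ g, 0 < Zc W g
  gin : ∀ g u, Zc W g ^ 2 * Zc W u ^ 2 ≤ Zc W (g + u) * Zc W (g - u) * Zc W 0 ^ 2

omit [Fintype V] in
theorem summable_cos {W : (V → ℤ) → ℝ} (h0 : ∀ h, 0 ≤ W h) (hs : Summable W)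
    (θ : (V → ℤ) → ℝ) : Summable fun h => W h * Real.cos (θ h) := by
  refine Summable.of_norm_bounded hs fun h => ?_
  rw [norm_mul, Real.norm_of_nonneg (h0 h), Real.norm_eq_abs]
  exact mul_le_of_le_one_right (h0 h) (Real.abs_cos_le_one _)

/-- one Gaussian mode added to the weight -/
noncomputable def addMode (W : (V → ℤ) → ℝ) (r : V → ℝ) : (V → ℤ) → ℝ :=
  fun h => W h * Real.exp (-(dt r h) ^ 2 / 2)

theorem addMode_nonneg {W : (V → ℤ) → ℝ} (h0 : ∀ h, 0 ≤ W h) (r : V → ℝ) (h : V → ℤ) :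
    0 ≤ addMode W r h := mul_nonneg (h0 h) (Real.exp_pos _).le

theorem addMode_le {W : (V → ℤ) → ℝ} (h0 : ∀ h, 0 ≤ W h) (r : V → ℝ) (h : V → ℤ) :
    addMode W r h ≤ W h := by
  refine mul_le_of_le_one_right (h0 h) ?_
  rw [Real.exp_le_one_iff]
  have := sq_nonneg (dt r h)
  linarith

theorem addMode_summable {W : (V → ℤ) → ℝ} (h0 : ∀ h, 0 ≤ W h) (hs : Summable W)
    (r : V → ℝ) : Summable (addMode W r) :=
  Summable.of_nonneg_of_le (addMode_nonneg h0 r) (addMode_le h0 r) hs

/-- the Gaussian density without normalisation -/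
noncomputable def gs (s : ℝ) : ℝ := Real.exp (-s ^ 2 / 2)

theorem gs_pos (s : ℝ) : 0 < gs s := Real.exp_pos _

theorem gs_integrable : Integrable gs := by
  have h := integrable_exp_neg_mul_sq (b := (1/2 : ℝ)) (by norm_num)
  refine h.congr (Filter.Eventually.of_forall fun s => ?_)
  simp only [gs]
  congr 1
  ring

theorem gs_exp_integrable (c : ℝ) : Integrable fun s => gs s * Real.exp (c * s) := by
  have h : Integrable fun s => Real.exp (c ^ 2 / 2) * gs (s - c) :=
    (gs_integrable.comp_sub_right c).const_mul _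
  refine h.congr (Filter.Eventually.of_forall fun s => ?_)
  simp only [gs]
  rw [← Real.exp_add, ← Real.exp_add]
  congr 1
  ring

theorem gs_integral_pos : 0 < ∫ s, gs s := by
  rw [integral_pos_iff_support_of_nonneg (fun s => (gs_pos s).le) gs_integrable]
  have : Function.support gs = Set.univ := by
    ext s; simp [Function.mem_support, (gs_pos s).ne']
  rw [this]; simp

/-- the one-dimensional Gaussian Fourier transform, real form -/
theorem gs_cos (a b : ℝ) :
    ∫ s, gs s * Real.cos (a + s * b) = Real.cos a * Real.exp (-b ^ 2 / 2) * ∫ s, gs s := by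
  have h1 := fourierIntegral_gaussian (b := (1/2 : ℂ)) (by norm_num) (b : ℂ)
  have h0 := fourierIntegral_gaussian (b := (1/2 : ℂ)) (by norm_num) (0 : ℂ)
  have hfun : ∀ s : ℝ, ((gs s * Real.cos (a + s * b) : ℝ)) =
      (Complex.exp (Complex.I * a) *
        (Complex.exp (Complex.I * b * s) * Complex.exp (-(1/2 : ℂ) * (s : ℂ) ^ 2))).re := by
    intro s
    have e1 : Complex.exp (Complex.I * a) *
        (Complex.exp (Complex.I * b * s) * Complex.exp (-(1/2 : ℂ) * (s : ℂ) ^ 2))
        = ((gs s : ℝ) : ℂ) * Complex.exp (((a + s * b : ℝ) : ℂ) * Complex.I) := by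
      rw [gs, Complex.ofReal_exp, ← Complex.exp_add, ← Complex.exp_add, ← Complex.exp_add]
      congr 1
      push_cast
      ring
    rw [e1, Complex.re_ofReal_mul, Complex.exp_ofReal_mul_I_re]
  have hint : Integrable fun s : ℝ => Complex.exp (Complex.I * a) *
        (Complex.exp (Complex.I * b * s) * Complex.exp (-(1/2 : ℂ) * (s : ℂ) ^ 2)) := by
    have e : ∀ s : ℝ, Complex.exp (Complex.I * a) *
        (Complex.exp (Complex.I * b * s) * Complex.exp (-(1/2 : ℂ) * (s : ℂ) ^ 2))
        = ((gs s : ℝ) : ℂ) * Complex.exp (((a + s * b : ℝ) : ℂ) * Complex.I) := by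
      intro s
      rw [gs, Complex.ofReal_exp, ← Complex.exp_add, ← Complex.exp_add, ← Complex.exp_add]
      congr 1
      push_cast
      ring
    simp_rw [e]
    refine Integrable.mono gs_integrable ?_ (Filter.Eventually.of_forall fun s => ?_)
    · refine Measurable.aestronglyMeasurable ?_
      unfold gs
      fun_prop
    · rw [norm_mul, Complex.norm_exp_ofReal_mul_I, mul_one, Complex.norm_real]
  have hL : ∫ s, gs s * Real.cos (a + s * b) =
      (∫ s : ℝ, Complex.exp (Complex.I * a) *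
        (Complex.exp (Complex.I * b * s) * Complex.exp (-(1/2 : ℂ) * (s : ℂ) ^ 2))).re := by
    have := Complex.reCLM.integral_comp_comm hint
    simp only [Complex.reCLM_apply] at this
    rw [← this]
    exact integral_congr_ae (Filter.Eventually.of_forall hfun)
  rw [hL, integral_const_mul, h1]
  have hgs : ((∫ s, gs s : ℝ) : ℂ) = (Real.pi / (1/2 : ℂ)) ^ (1 / 2 : ℂ) := by
    have : ∀ s : ℝ, Complex.exp (Complex.I * (0:ℂ) * s) * Complex.exp (-(1/2 : ℂ) * (s : ℂ) ^ 2)
        = ((gs s : ℝ) : ℂ) := by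
      intro s
      rw [gs, Complex.ofReal_exp, ← Complex.exp_add]
      congr 1
      push_cast
      ring
    have h2 : ((∫ s, gs s : ℝ) : ℂ) = ∫ s, ((gs s : ℝ) : ℂ) := (integral_complex_ofReal).symm
    rw [h2]
    simp_rw [this] at h0
    rw [h0]
    simp
  rw [← hgs]
  have e3 : Complex.exp (-(b : ℂ) ^ 2 / (4 * (1/2 : ℂ))) = ((Real.exp (-b ^ 2 / 2) : ℝ) : ℂ) := by
    rw [Complex.ofReal_exp]
    congr 1
    push_cast
    ring
  rw [e3, mul_comm Complex.I (a : ℂ)]
  rw [← Complex.ofReal_mul, mul_comm (Complex.exp _), Complex.re_ofReal_mul,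
    Complex.exp_ofReal_mul_I_re]
  ring

/-! ### The rank-one step -/

theorem Zc_abs_le {W : (V → ℤ) → ℝ} (h0 : ∀ h, 0 ≤ W h) (hs : Summable W) (g : V → ℝ) :
    |Zc W g| ≤ ∑' h, W h := by
  have h1 := summable_cos h0 hs (fun h => dt g h)
  have h2 : ‖∑' h, W h * Real.cos (dt g h)‖ ≤ ∑' h, ‖W h * Real.cos (dt g h)‖ :=
    norm_tsum_le_tsum_norm h1.norm
  rw [← Real.norm_eq_abs]
  refine h2.trans (Summable.tsum_le_tsum (fun h => ?_) h1.norm hs)
  rw [norm_mul, Real.norm_of_nonneg (h0 h), Real.norm_eq_abs]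
  exact mul_le_of_le_one_right (h0 h) (Real.abs_cos_le_one _)

theorem continuous_dt (h : V → ℤ) : Continuous fun g : V → ℝ => dt g h := by
  unfold dt
  fun_prop

theorem continuous_Zc {W : (V → ℤ) → ℝ} (h0 : ∀ h, 0 ≤ W h) (hs : Summable W) :
    Continuous (Zc W) := by
  refine continuous_tsum (fun h => ?_) hs (fun h g => ?_)
  · exact continuous_const.mul (Real.continuous_cos.comp (continuous_dt h))
  · rw [norm_mul, Real.norm_of_nonneg (h0 h), Real.norm_eq_abs]
    exact mul_le_of_le_one_right (h0 h) (Real.abs_cos_le_one _)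

theorem mode_integral {W : (V → ℤ) → ℝ} (h0 : ∀ h, 0 ≤ W h) (hs : Summable W)
    (g r : V → ℝ) :
    ∫ s, gs s * Zc W (g + s • r) = (∫ s, gs s) * Zc (addMode W r) g := by
  have hint : ∀ h : V → ℤ, Integrable fun s => W h * (gs s * Real.cos (dt g h + s * dt r h)) := by
    intro h
    refine Integrable.const_mul ?_ _
    refine Integrable.mono gs_integrable ?_ (Filter.Eventually.of_forall fun s => ?_)
    · refine Measurable.aestronglyMeasurable ?_
      unfold gs
      fun_prop
    · rw [norm_mul]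
      refine mul_le_of_le_one_right (norm_nonneg _) ?_
      rw [Real.norm_eq_abs]
      exact Real.abs_cos_le_one _
  have hsum : Summable fun h : V → ℤ =>
      ∫ s, ‖W h * (gs s * Real.cos (dt g h + s * dt r h))‖ := by
    refine Summable.of_nonneg_of_le (fun h => integral_nonneg fun s => norm_nonneg _)
      (fun h => ?_) (hs.mul_right (∫ s, gs s))
    rw [← integral_const_mul]
    refine integral_mono (hint h).norm (gs_integrable.const_mul _) fun s => ?_
    simp only
    rw [norm_mul, norm_mul, Real.norm_of_nonneg (h0 h), Real.norm_of_nonneg (gs_pos s).le,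
      Real.norm_eq_abs]
    refine mul_le_mul_of_nonneg_left ?_ (h0 h)
    exact mul_le_of_le_one_right (gs_pos s).le (Real.abs_cos_le_one _)
  have key := (hasSum_integral_of_summable_integral_norm hint hsum).tsum_eq
  have e1 : ∀ s, gs s * Zc W (g + s • r)
      = ∑' h, W h * (gs s * Real.cos (dt g h + s * dt r h)) := by
    intro s
    rw [Zc, ← tsum_mul_left]
    refine tsum_congr fun h => ?_
    rw [dt_add, dt_smul]
    ring
  simp_rw [e1]
  rw [← key, Zc, ← tsum_mul_left]
  refine tsum_congr fun h => ?_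
  rw [integral_const_mul, gs_cos, addMode]
  ring

theorem integrable_mode {W : (V → ℤ) → ℝ} (h0 : ∀ h, 0 ≤ W h) (hs : Summable W)
    (f r : V → ℝ) (c : ℝ) :
    Integrable fun s => gs s * Real.exp (c * s) * Zc W (f + s • r) := by
  have hc : Continuous fun s : ℝ => Zc W (f + s • r) :=
    (continuous_Zc h0 hs).comp (by fun_prop)
  refine Integrable.mono ((gs_exp_integrable c).mul_const (∑' h, W h)) ?_
    (Filter.Eventually.of_forall fun s => ?_)
  · refine Continuous.aestronglyMeasurable ?_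
    unfold gs
    fun_prop
  · have h1 : ‖Zc W (f + s • r)‖ ≤ ‖∑' h, W h‖ := by
      rw [Real.norm_eq_abs]
      exact (Zc_abs_le h0 hs _).trans (le_abs_self _)
    rw [norm_mul (gs s * Real.exp (c * s)), norm_mul (gs s * Real.exp (c * s))]
    exact mul_le_mul_of_nonneg_left h1 (norm_nonneg _)

/-- **The rank-one step**: `U_{T + r rᵀ}(f + c r) ≤ U_T(f) + c²/2`. -/
theorem mode_step {W : (V → ℤ) → ℝ} (hW : Good W) (r f : V → ℝ) (c : ℝ) :
    Real.exp (-c ^ 2 / 2) * Zc W f * Zc (addMode W r) 0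
      ≤ Zc (addMode W r) (f + c • r) * Zc W 0 := by
  have h0 := hW.nonneg
  have hs := hW.summable
  have hZ0 : 0 < Zc W 0 := hW.pos 0
  -- the numerator
  have n1 : (∫ s, gs s) * Zc (addMode W r) (f + c • r)
      = ∫ s, gs s * Zc W (f + c • r + s • r) := (mode_integral h0 hs _ r).symm
  have n2 : ∫ s, gs s * Zc W (f + c • r + s • r)
      = ∫ s, Real.exp (-c ^ 2 / 2) * (gs s * Real.exp (c * s) * Zc W (f + s • r)) := by
    rw [← integral_sub_right_eq_self (fun s => gs s * Zc W (f + c • r + s • r)) c]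
    refine integral_congr_ae (Filter.Eventually.of_forall fun s => ?_)
    simp only
    have e1 : f + c • r + (s - c) • r = f + s • r := by
      rw [sub_smul]
      abel
    have e2 : gs (s - c) = Real.exp (-c ^ 2 / 2) * (gs s * Real.exp (c * s)) := by
      simp only [gs]
      rw [← Real.exp_add, ← Real.exp_add]
      congr 1
      ring
    rw [e1, e2]
    ring
  have n3 : ∫ s, gs s * Real.exp (c * s) * Zc W (f + s • r)
      = ∫ s, gs s * Real.exp (-c * s) * Zc W (-f + s • r) := by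
    rw [← integral_neg_eq_self (fun s => gs s * Real.exp (c * s) * Zc W (f + s • r))]
    refine integral_congr_ae (Filter.Eventually.of_forall fun s => ?_)
    simp only
    have e1 : f + (-s) • r = -(-f + s • r) := by
      rw [neg_smul]
      abel
    have e2 : gs (-s) = gs s := by simp [gs]
    rw [e1, Zc_neg, e2]
    congr 2
    ring_nf
  have hI1 := integrable_mode h0 hs f r c
  have hI2 := integrable_mode h0 hs (-f) r (-c)
  have hI3 := integrable_mode h0 hs 0 r 0
  have n4 : (∫ s, gs s) * Zc (addMode W r) 0 = ∫ s, gs s * Real.exp (0 * s) * Zc W (0 + s • r) := by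
    rw [← mode_integral h0 hs 0 r]
    refine integral_congr_ae (Filter.Eventually.of_forall fun s => ?_)
    simp
  have key : (Zc W f / Zc W 0) * ∫ s, gs s * Real.exp (0 * s) * Zc W (0 + s • r)
      ≤ ∫ s, gs s * Real.exp (c * s) * Zc W (f + s • r) := by
    have e : ∫ s, gs s * Real.exp (c * s) * Zc W (f + s • r)
        = ∫ s, (1/2 : ℝ) * (gs s * Real.exp (c * s) * Zc W (f + s • r)
          + gs s * Real.exp (-c * s) * Zc W (-f + s • r)) := by
      rw [integral_const_mul, integral_add hI1 hI2, ← n3]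
      ring
    rw [e, ← integral_const_mul]
    refine integral_mono (hI3.const_mul _) ((hI1.add hI2).const_mul _) fun s => ?_
    simp only [zero_mul, Real.exp_zero, mul_one, zero_add]
    have hg := gs_pos s
    set A := Real.exp (c * s) * Zc W (f + s • r) with hA
    set B := Real.exp (-c * s) * Zc W (-f + s • r) with hB
    have hApos : 0 < A := mul_pos (Real.exp_pos _) (hW.pos _)
    have hBpos : 0 < B := mul_pos (Real.exp_pos _) (hW.pos _)
    have hAB : A * B = Zc W (s • r + f) * Zc W (s • r - f) := by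
      rw [hA, hB]
      have : Real.exp (c * s) * Real.exp (-c * s) = 1 := by
        rw [← Real.exp_add]; simp
      have e1 : f + s • r = s • r + f := by abel
      have e2 : -f + s • r = s • r - f := by abel
      rw [e1, e2]
      calc _ = (Real.exp (c * s) * Real.exp (-c * s))
            * (Zc W (s • r + f) * Zc W (s • r - f)) := by ring
        _ = _ := by rw [this, one_mul]
    have hG := hW.gin (s • r) f
    have hpf := hW.pos f
    have hpr := hW.pos (s • r)
    have hle : (Zc W f / Zc W 0 * Zc W (s • r)) ^ 2 ≤ ((1/2) * (A + B)) ^ 2 := by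
      have h1 : (Zc W f / Zc W 0 * Zc W (s • r)) ^ 2 ≤ A * B := by
        rw [hAB, mul_pow, div_pow, div_mul_eq_mul_div, div_le_iff₀ (by positivity)]
        linarith
      have h2 : A * B ≤ ((1/2) * (A + B)) ^ 2 := by nlinarith [sq_nonneg (A - B)]
      exact h1.trans h2
    have hle2 : Zc W f / Zc W 0 * Zc W (s • r) ≤ (1/2) * (A + B) :=
      le_of_sq_le_sq hle (by positivity)
    calc Zc W f / Zc W 0 * (gs s * Zc W (s • r))
        = gs s * (Zc W f / Zc W 0 * Zc W (s • r)) := by ring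
      _ ≤ gs s * ((1/2) * (A + B)) := mul_le_mul_of_nonneg_left hle2 hg.le
      _ = _ := by rw [hA, hB]; ring
  have hI := gs_integral_pos
  rw [← n4] at key
  rw [integral_const_mul] at n2
  have h5 : (∫ s, gs s) * (Real.exp (-c ^ 2 / 2) * Zc W f * Zc (addMode W r) 0)
      ≤ (∫ s, gs s) * (Zc (addMode W r) (f + c • r) * Zc W 0) := by
    have h6 : (∫ s, gs s) * Zc (addMode W r) (f + c • r)
        ≥ Real.exp (-c ^ 2 / 2) * (Zc W f / Zc W 0 * ((∫ s, gs s) * Zc (addMode W r) 0)) := by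
      rw [n1, n2]
      exact mul_le_mul_of_nonneg_left key (Real.exp_pos _).le
    have h7 := mul_le_mul_of_nonneg_right h6 hZ0.le
    have h8 : Zc W f / Zc W 0 * Zc W 0 = Zc W f := div_mul_cancel₀ _ hZ0.ne'
    calc (∫ s, gs s) * (Real.exp (-c ^ 2 / 2) * Zc W f * Zc (addMode W r) 0)
        = Real.exp (-c ^ 2 / 2) * ((Zc W f / Zc W 0 * Zc W 0)
            * ((∫ s, gs s) * Zc (addMode W r) 0)) := by rw [h8]; ring
      _ = Real.exp (-c ^ 2 / 2) * (Zc W f / Zc W 0 * ((∫ s, gs s) * Zc (addMode W r) 0))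
            * Zc W 0 := by ring
      _ ≤ (∫ s, gs s) * Zc (addMode W r) (f + c • r) * Zc W 0 := h7
      _ = _ := by ring
  exact le_of_mul_le_mul_left h5 hI

/-! ### Many modes -/

/-- the weight with the modes `r j`, `j ∈ S`, added -/
noncomputable def addModes {ι : Type*} (W : (V → ℤ) → ℝ) (r : ι → V → ℝ) (S : Finset ι) :
    (V → ℤ) → ℝ :=
  fun h => W h * Real.exp (-(∑ j ∈ S, (dt (r j) h) ^ 2) / 2)

theorem addModes_empty {ι : Type*} (W : (V → ℤ) → ℝ) (r : ι → V → ℝ) :
    addModes W r ∅ = W := by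
  ext h
  simp [addModes]

theorem addModes_insert {ι : Type*} [DecidableEq ι] (W : (V → ℤ) → ℝ) (r : ι → V → ℝ)
    (S : Finset ι) (j : ι) (hj : j ∉ S) :
    addModes W r (insert j S) = addMode (addModes W r S) (r j) := by
  ext h
  simp only [addModes, addMode, Finset.sum_insert hj]
  rw [mul_assoc, ← Real.exp_add]
  congr 2
  ring

/-- **The many-mode step**: `U_{T + D}(f + ∑ c_j r_j) ≤ U_T(f) + ∑ c_j²/2`. -/
theorem modes_step {ι : Type*} [DecidableEq ι] (W : (V → ℤ) → ℝ) (r : ι → V → ℝ)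
    (hW : ∀ S : Finset ι, Good (addModes W r S)) (c : ι → ℝ) (f : V → ℝ) (S : Finset ι) :
    Real.exp (-(∑ j ∈ S, c j ^ 2) / 2) * Zc W f * Zc (addModes W r S) 0
      ≤ Zc (addModes W r S) (f + ∑ j ∈ S, c j • r j) * Zc W 0 := by
  induction S using Finset.induction_on with
  | empty => simp [addModes_empty]
  | insert j S hj ih =>
    have hstep := mode_step (hW S) (r j) (f + ∑ i ∈ S, c i • r i) (c j)
    rw [← addModes_insert W r S j hj] at hstep
    rw [Finset.sum_insert hj, Finset.sum_insert hj]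
    have e1 : f + (c j • r j + ∑ i ∈ S, c i • r i) = f + ∑ i ∈ S, c i • r i + c j • r j := by
      abel
    rw [e1]
    have e2 : Real.exp (-(c j ^ 2 + ∑ i ∈ S, c i ^ 2) / 2)
        = Real.exp (-c j ^ 2 / 2) * Real.exp (-(∑ i ∈ S, c i ^ 2) / 2) := by
      rw [← Real.exp_add]
      congr 1
      ring
    rw [e2]
    have hZS : 0 < Zc (addModes W r S) 0 := (hW S).pos 0
    have hZI : 0 < Zc (addModes W r (insert j S)) 0 := (hW _).pos 0
    have hZ0 : 0 < Zc W 0 := by
      have := (hW ∅).pos 0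
      rwa [addModes_empty] at this
    have hp := Real.exp_pos (-c j ^ 2 / 2)
    have h1 := mul_le_mul_of_nonneg_left ih
      (mul_nonneg hp.le hZI.le)
    have h2 := mul_le_mul_of_nonneg_right hstep hZ0.le
    have h3 : Real.exp (-c j ^ 2 / 2) * Real.exp (-(∑ i ∈ S, c i ^ 2) / 2) * Zc W f
          * Zc (addModes W r (insert j S)) 0 * Zc (addModes W r S) 0
        ≤ Zc (addModes W r (insert j S)) (f + ∑ i ∈ S, c i • r i + c j • r j) * Zc W 0
          * Zc (addModes W r S) 0 := by
      calc _ = Real.exp (-c j ^ 2 / 2) * Zc (addModes W r (insert j S)) 0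
              * (Real.exp (-(∑ i ∈ S, c i ^ 2) / 2) * Zc W f * Zc (addModes W r S) 0) := by ring
        _ ≤ Real.exp (-c j ^ 2 / 2) * Zc (addModes W r (insert j S)) 0
              * (Zc (addModes W r S) (f + ∑ i ∈ S, c i • r i) * Zc W 0) := h1
        _ = Real.exp (-c j ^ 2 / 2) * Zc (addModes W r S) (f + ∑ i ∈ S, c i • r i)
              * Zc (addModes W r (insert j S)) 0 * Zc W 0 := by ring
        _ ≤ _ := h2
        _ = _ := by ring
    exact le_of_mul_le_mul_right h3 hZS

/-! ### Positive semidefinite forms -/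

/-- the weight with the quadratic mass form `⟨h, D h⟩` added -/
noncomputable def addForm (W : (V → ℤ) → ℝ) (D : Matrix V V ℝ) : (V → ℤ) → ℝ :=
  fun h => W h * Real.exp (-((fun x => (h x : ℝ)) ⬝ᵥ (D.mulVec fun x => (h x : ℝ))) / 2)

theorem dt_eq_dotProduct (g : V → ℝ) (h : V → ℤ) : dt g h = g ⬝ᵥ fun x => (h x : ℝ) := rfl

/-- the form `∑_{j ∈ S} r_j r_jᵀ` -/
noncomputable def outer {ι : Type*} (r : ι → V → ℝ) (S : Finset ι) : Matrix V V ℝ :=
  ∑ j ∈ S, Matrix.vecMulVec (r j) (r j)

theorem outer_mulVec {ι : Type*} (r : ι → V → ℝ) (S : Finset ι) (v : V → ℝ) :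
    (outer r S).mulVec v = ∑ j ∈ S, (r j ⬝ᵥ v) • r j := by
  rw [outer, Matrix.sum_mulVec]
  refine Finset.sum_congr rfl fun j _ => ?_
  rw [Matrix.vecMulVec_mulVec]
  ext x
  simp [mul_comm]

theorem outer_quad {ι : Type*} (r : ι → V → ℝ) (S : Finset ι) (v : V → ℝ) :
    v ⬝ᵥ ((outer r S).mulVec v) = ∑ j ∈ S, (r j ⬝ᵥ v) ^ 2 := by
  rw [outer_mulVec, dotProduct_sum]
  refine Finset.sum_congr rfl fun j _ => ?_
  rw [dotProduct_smul, smul_eq_mul, dotProduct_comm v (r j), sq]

theorem addForm_outer {ι : Type*} (W : (V → ℤ) → ℝ) (r : ι → V → ℝ) (S : Finset ι) :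
    addForm W (outer r S) = addModes W r S := by
  ext h
  simp only [addForm, addModes, outer_quad, dt_eq_dotProduct]

theorem outer_posSemidef {ι : Type*} (r : ι → V → ℝ) (S : Finset ι) :
    (outer r S).PosSemidef := by
  classical
  refine Matrix.posSemidef_sum S fun j _ => ?_
  have := Matrix.posSemidef_vecMulVec_self_star (r j)
  simpa using this

/-- **E7, finite form**: for `D` positive semidefinite and all real `f v`,
`U_{T+D}(f + D v) ≤ U_T(f) + ⟨v, D v⟩/2`. -/
theorem form_step (W : (V → ℤ) → ℝ)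
    (hW : ∀ D : Matrix V V ℝ, D.PosSemidef → Good (addForm W D))
    {D : Matrix V V ℝ} (hD : D.PosSemidef) (f v : V → ℝ) :
    Real.exp (-(v ⬝ᵥ (D.mulVec v)) / 2) * Zc W f * Zc (addForm W D) 0
      ≤ Zc (addForm W D) (f + D.mulVec v) * Zc W 0 := by
  classical
  obtain ⟨m, r, hr⟩ := Matrix.posSemidef_iff_eq_sum_vecMulVec.1 hD
  have hD' : D = outer r Finset.univ := by
    rw [hr, outer]
    refine Finset.sum_congr rfl fun j _ => ?_
    congr 1
  have h := modes_step W r (fun S => by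
    rw [← addForm_outer]
    exact hW _ (outer_posSemidef r S)) (fun j => r j ⬝ᵥ v) f Finset.univ
  rw [← addForm_outer, ← hD', ← outer_quad, ← outer_mulVec, ← hD'] at h
  exact h

/-! ### Second moments -/

/-- the (non-normalised) second moment of `⟨g, h⟩` -/
noncomputable def M2 (W : (V → ℤ) → ℝ) (g : V → ℝ) : ℝ := ∑' h, W h * (dt g h) ^ 2

theorem tendsto_point (x : ℝ) :
    Filter.Tendsto (fun t : ℝ => (1 - Real.cos (t * x)) * (2 / t ^ 2))
      (nhdsWithin 0 {0}ᶜ) (nhds (x ^ 2)) := by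
  have hd : HasDerivAt (fun t : ℝ => Real.sin (t * (x / 2))) (x / 2) 0 := by
    have h1 : HasDerivAt (fun t : ℝ => t * (x / 2)) (x / 2) 0 := by
      simpa using (hasDerivAt_id (0 : ℝ)).mul_const (x / 2)
    have h2 := h1.sin
    simpa using h2
  have h3 := hasDerivAt_iff_tendsto_slope_zero.1 hd
  have h4 : Filter.Tendsto (fun t : ℝ => (2 * (t⁻¹ • (Real.sin ((0 + t) * (x / 2))
      - Real.sin (0 * (x / 2))))) ^ 2) (nhdsWithin 0 {0}ᶜ) (nhds ((2 * (x / 2)) ^ 2)) :=
    (h3.const_mul 2).pow 2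
  have e : (2 * (x / 2)) ^ 2 = x ^ 2 := by ring
  rw [e] at h4
  refine h4.congr' ?_
  filter_upwards [self_mem_nhdsWithin] with t ht
  have ht0 : t ≠ 0 := by simpa using ht
  have hc : 1 - Real.cos (t * x) = 2 * Real.sin (t * (x / 2)) ^ 2 := by
    have := Real.cos_sq (t * (x / 2))
    have h5 := Real.sin_sq_add_cos_sq (t * (x / 2))
    have e2 : 2 * (t * (x / 2)) = t * x := by ring
    rw [e2] at this
    linarith
  rw [hc]
  simp only [zero_add, zero_mul, Real.sin_zero, sub_zero, smul_eq_mul]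
  field_simp

theorem tendsto_second {W : (V → ℤ) → ℝ} (h0 : ∀ h, 0 ≤ W h) (hs : Summable W) (g : V → ℝ)
    (h2 : Summable fun h => W h * (dt g h) ^ 2) :
    Filter.Tendsto (fun t : ℝ => (Zc W 0 - Zc W (t • g)) * (2 / t ^ 2))
      (nhdsWithin 0 {0}ᶜ) (nhds (M2 W g)) := by
  have e : ∀ t : ℝ, (Zc W 0 - Zc W (t • g)) * (2 / t ^ 2)
      = ∑' h, W h * ((1 - Real.cos (t * dt g h)) * (2 / t ^ 2)) := by
    intro t
    have s1 := summable_cos h0 hs (fun h => t * dt g h)
    rw [Zc_zero, Zc]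
    simp_rw [dt_smul]
    rw [← Summable.tsum_sub hs s1, ← tsum_mul_right]
    refine tsum_congr fun h => ?_
    ring
  simp_rw [e, M2]
  refine tendsto_tsum_of_dominated_convergence h2 (fun h => ?_) ?_
  · exact (tendsto_point (dt g h)).const_mul (W h)
  · filter_upwards [self_mem_nhdsWithin] with t ht h
    have ht0 : t ≠ 0 := by simpa using ht
    have hc := Real.one_sub_sq_div_two_le_cos (x := t * dt g h)
    have hc1 := Real.cos_le_one (t * dt g h)
    have ht2 : 0 < t ^ 2 := by positivity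
    rw [norm_mul, Real.norm_of_nonneg (h0 h), Real.norm_of_nonneg
      (mul_nonneg (by linarith) (by positivity))]
    refine mul_le_mul_of_nonneg_left ?_ (h0 h)
    rw [mul_div_assoc', div_le_iff₀ ht2]
    nlinarith

/-- second-order consequence of a finite-`t` comparison -/
theorem second_of_finite {W W' : (V → ℤ) → ℝ} (h0 : ∀ h, 0 ≤ W h) (hs : Summable W)
    (h0' : ∀ h, 0 ≤ W' h) (hs' : Summable W') (f F : V → ℝ)
    (h2 : Summable fun h => W h * (dt f h) ^ 2)
    (h2' : Summable fun h => W' h * (dt F h) ^ 2) (q : ℝ)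
    (hcmp : ∀ t : ℝ, Real.exp (-(t ^ 2 * q) / 2) * Zc W (t • f) * Zc W' 0
      ≤ Zc W' (t • F) * Zc W 0) :
    M2 W' F * Zc W 0 ≤ M2 W f * Zc W' 0 + q * (Zc W 0 * Zc W' 0) := by
  have l1 := tendsto_second h0 hs f h2
  have l2 := tendsto_second h0' hs' F h2'
  have l3 : Filter.Tendsto (fun t : ℝ => (1 - Real.exp (-(t ^ 2 * q) / 2)) * (2 / t ^ 2))
      (nhdsWithin 0 {0}ᶜ) (nhds q) := by
    have hd : HasDerivAt (fun u : ℝ => Real.exp (-(u * q) / 2)) (-q / 2) 0 := by
      have h1 : HasDerivAt (fun u : ℝ => -(u * q) / 2) (-q / 2) 0 := by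
        have := ((hasDerivAt_id (0 : ℝ)).mul_const q).neg.div_const 2
        simpa using this
      have h2 := h1.exp
      simpa using h2
    have h3 := hasDerivAt_iff_tendsto_slope_zero.1 hd
    have hsq : Filter.Tendsto (fun t : ℝ => t ^ 2) (nhdsWithin 0 {0}ᶜ) (nhdsWithin 0 {0}ᶜ) := by
      refine tendsto_nhdsWithin_iff.2 ⟨?_, ?_⟩
      · have : Filter.Tendsto (fun t : ℝ => t ^ 2) (nhds 0) (nhds (0 ^ 2)) :=
          (continuous_pow 2).tendsto 0
        rw [zero_pow two_ne_zero] at this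
        exact this.mono_left nhdsWithin_le_nhds
      · filter_upwards [self_mem_nhdsWithin] with t ht
        have ht0 : t ≠ 0 := by simpa using ht
        simpa using ht0
    have h4 := (h3.comp hsq).const_mul (-2)
    have e : (-2 : ℝ) * (-q / 2) = q := by ring
    rw [e] at h4
    refine h4.congr' ?_
    filter_upwards [self_mem_nhdsWithin] with t ht
    have ht0 : t ≠ 0 := by simpa using ht
    simp only [Function.comp, zero_add, zero_mul, neg_zero, zero_div, Real.exp_zero, smul_eq_mul]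
    field_simp
    ring
  have l4 : Filter.Tendsto (fun t : ℝ => Zc W (t • f)) (nhdsWithin 0 {0}ᶜ) (nhds (Zc W 0)) := by
    have hc : Continuous fun t : ℝ => Zc W (t • f) :=
      (continuous_Zc h0 hs).comp (by fun_prop)
    have := hc.tendsto 0
    simp only [zero_smul] at this
    exact this.mono_left nhdsWithin_le_nhds
  have lL := l2.mul_const (Zc W 0)
  have lR := (l1.mul_const (Zc W' 0)).add ((l3.mul l4).mul_const (Zc W' 0))
  refine (le_of_tendsto_of_tendsto lL lR ?_).trans (le_of_eq (by ring))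
  filter_upwards [self_mem_nhdsWithin] with t ht
  have ht0 : t ≠ 0 := by simpa using ht
  have hp : 0 < 2 / t ^ 2 := by positivity
  have h := hcmp t
  have h' : (Zc W' 0 - Zc W' (t • F)) * Zc W 0
      ≤ (Zc W 0 - Zc W (t • f)) * Zc W' 0
        + (1 - Real.exp (-(t ^ 2 * q) / 2)) * Zc W (t • f) * Zc W' 0 := by
    linarith
  calc (Zc W' 0 - Zc W' (t • F)) * (2 / t ^ 2) * Zc W 0
      = ((Zc W' 0 - Zc W' (t • F)) * Zc W 0) * (2 / t ^ 2) := by ring
    _ ≤ ((Zc W 0 - Zc W (t • f)) * Zc W' 0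
        + (1 - Real.exp (-(t ^ 2 * q) / 2)) * Zc W (t • f) * Zc W' 0) * (2 / t ^ 2) :=
        mul_le_mul_of_nonneg_right h' hp.le
    _ = _ := by ring

/-- the variance (mean-zero second moment) of `⟨g, h⟩` under the normalised weight -/
noncomputable def Vr (W : (V → ℤ) → ℝ) (g : V → ℝ) : ℝ := M2 W g / Zc W 0

/-- **E7, second-order form**: `Var_{T+D}⟨f + D v, h⟩ ≤ Var_T⟨f, h⟩ + ⟨v, D v⟩`. -/
theorem var_step (W : (V → ℤ) → ℝ)
    (hW : ∀ D : Matrix V V ℝ, D.PosSemidef → Good (addForm W D))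
    (h2 : ∀ g : V → ℝ, Summable fun h => W h * (dt g h) ^ 2)
    {D : Matrix V V ℝ} (hD : D.PosSemidef) (f v : V → ℝ) :
    Vr (addForm W D) (f + D.mulVec v) ≤ Vr W f + v ⬝ᵥ (D.mulVec v) := by
  have hGD := hW D hD
  have hG0 : Good W := by
    have := hW 0 Matrix.PosSemidef.zero
    have e : addForm W 0 = W := by
      ext h
      simp [addForm]
    rwa [e] at this
  have hle : ∀ h, addForm W D h ≤ W h := by
    intro h
    refine mul_le_of_le_one_right (hG0.nonneg h) ?_
    rw [Real.exp_le_one_iff]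
    have := hD.dotProduct_mulVec_nonneg (fun x => (h x : ℝ))
    simp only [star_trivial] at this
    linarith
  have h2D : Summable fun h => addForm W D h * (dt (f + D.mulVec v) h) ^ 2 :=
    Summable.of_nonneg_of_le (fun h => mul_nonneg (hGD.nonneg h) (sq_nonneg _))
      (fun h => mul_le_mul_of_nonneg_right (hle h) (sq_nonneg _)) (h2 _)
  have key := second_of_finite hG0.nonneg hG0.summable hGD.nonneg hGD.summable f
    (f + D.mulVec v) (h2 f) h2D (v ⬝ᵥ (D.mulVec v)) (fun t => by
      have := form_step W hW hD (t • f) (t • v)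
      have e1 : t • f + D.mulVec (t • v) = t • (f + D.mulVec v) := by
        rw [Matrix.mulVec_smul, smul_add]
      have e2 : (t • v) ⬝ᵥ (D.mulVec (t • v)) = t ^ 2 * (v ⬝ᵥ (D.mulVec v)) := by
        rw [Matrix.mulVec_smul, smul_dotProduct, dotProduct_smul, smul_eq_mul, smul_eq_mul]
        ring
      rw [e1, e2] at this
      exact this)
  have hZ := hG0.pos 0
  have hZD := hGD.pos 0
  rw [Vr, Vr, div_le_iff₀ hZD, add_mul, div_mul_eq_mul_div]
  rw [← mul_le_mul_iff_left₀ hZ]
  calc M2 (addForm W D) (f + D.mulVec v) * Zc W 0 ≤ _ := key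
    _ = _ := by
      field_simp

/-- **E7 in Legendre form**: an upper bound `Π_{T+D} ≤ Q` descends to `Π_T ≤ Q`. -/
theorem legendre_step (W : (V → ℤ) → ℝ)
    (hW : ∀ D : Matrix V V ℝ, D.PosSemidef → Good (addForm W D))
    (h2 : ∀ g : V → ℝ, Summable fun h => W h * (dt g h) ^ 2)
    {D : Matrix V V ℝ} (hD : D.PosSemidef) (Q : (V → ℝ) → ℝ)
    (hQ : ∀ F u : V → ℝ, 2 * (F ⬝ᵥ u) - u ⬝ᵥ (D.mulVec u) - Q u ≤ Vr (addForm W D) F)
    (f u : V → ℝ) :
    2 * (f ⬝ᵥ u) - Q u ≤ Vr W f := by
  have h1 := hQ (f + D.mulVec u) u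
  have h3 := var_step W hW h2 hD f u
  rw [add_dotProduct] at h1
  have e : D.mulVec u ⬝ᵥ u = u ⬝ᵥ D.mulVec u := dotProduct_comm _ _
  rw [e] at h1
  linarith

end Vale.Agent.P159.TM.H442
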