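import Vale.Agent.P159.TM.H576.Fat

/-!
P159 / T1, node A6, leaf (SW): the swap identity. `Cut` is any set of edges; the total weight in
which the state of one end point of every edge of `Cut` is swapped equals the weight of the
configurations whose open edges have no cycle crossing `Cut` an odd number of times (`Bip`).
Abstract, any swap invariant system on a finite graph.
-/

open Finset
open scoped ENNReal

set_option linter.unusedSectionVars false
set_option linter.unusedDecidableInType false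
set_option linter.unusedFintypeInType false

namespace Vale.Agent.P159.TM.H442

open H60

/-- `om` has a two-colouring which changes exactly along the edges of `Cut`, that is: no cycle of
`om` crosses `Cut` an odd number of times -/
def Bip {V E : Type*} (s t : E → V) (Cut om : Finset E) : Prop :=
  ∃ F : Finset V, ∀ e ∈ om, (e ∈ Cut ↔ ¬ (s e ∈ F ↔ t e ∈ F))

theorem Bip.mono {V E : Type*} {s t : E → V} {Cut om om' : Finset E} (h : Bip s t Cut om')
    (hs : om ⊆ om') : Bip s t Cut om := by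
  obtain ⟨F, hF⟩ := h
  exact ⟨F, fun e he => hF e (hs he)⟩

section
variable {V E S : Type*} [Fintype V] [DecidableEq V] [Fintype E] [DecidableEq E]
  (σ : Sys V E S) (Cut : Finset E)

/-- total weight, twisted along `Cut` -/
noncomputable def totw (x : V → S) : ℝ :=
  (∏ e, σ.fl e (x (σ.s e)) (if e ∈ Cut then σ.sw (x (σ.t e)) else x (σ.t e))) * ∏ v, σ.g v (x v)

/-- the weight with the open edges `om`, twisted along `Cut` -/
noncomputable def wtw (om : Finset E) (x : V → S) : ℝ :=
  (∏ e ∈ om, σ.op e (x (σ.s e)) (if e ∈ Cut then σ.sw (x (σ.t e)) else x (σ.t e))) *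
    (∏ e ∈ omᶜ, σ.cl e (x (σ.s e)) (x (σ.t e))) * ∏ v, σ.g v (x v)

theorem cl_tw (e : E) (x y : S) (p : Prop) [Decidable p] :
    σ.cl e x (if p then σ.sw y else y) = σ.cl e x y := by
  split_ifs
  · rw [σ.cl_sw_right]
  · rfl

theorem sum_wtw (x : V → S) : ∑ om : Finset E, wtw σ Cut om x = totw σ Cut x := by
  unfold wtw totw
  rw [← Finset.sum_mul]
  congr 1
  have h := full_expand (fun e => σ.op e (x (σ.s e))
      (if e ∈ Cut then σ.sw (x (σ.t e)) else x (σ.t e))) (fun e => σ.cl e (x (σ.s e)) (x (σ.t e)))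
  rw [← h]
  refine Finset.prod_congr rfl fun e _ => ?_
  have h2 := σ.op_add_cl e (x (σ.s e)) (if e ∈ Cut then σ.sw (x (σ.t e)) else x (σ.t e))
  rw [cl_tw] at h2
  exact h2

theorem wtw_nonneg (om : Finset E) (x : V → S) : 0 ≤ wtw σ Cut om x := by
  unfold wtw
  refine mul_nonneg (mul_nonneg ?_ ?_) ?_
  · exact Finset.prod_nonneg fun e _ => σ.op_nonneg _ _ _
  · exact Finset.prod_nonneg fun e _ => σ.cl_nonneg _ _ _
  · exact Finset.prod_nonneg fun v _ => σ.g_nonneg _ _

theorem totw_nonneg (x : V → S) : 0 ≤ totw σ Cut x := by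
  rw [← sum_wtw]
  exact Finset.sum_nonneg fun om _ => wtw_nonneg σ Cut om x

/-- untwisting by a colouring -/
theorem wtw_flip {om : Finset E} {F : Finset V}
    (h : ∀ e ∈ om, (e ∈ Cut ↔ ¬ (σ.s e ∈ F ↔ σ.t e ∈ F))) (x : V → S) :
    wtw σ Cut om (σ.flip F x) = σ.wt om x := by
  unfold wtw Sys.wt
  have hg : ∏ v, σ.g v (σ.flip F x v) = ∏ v, σ.g v (x v) := by
    refine Finset.prod_congr rfl fun v _ => ?_
    by_cases hv : v ∈ F
    · rw [σ.flip_mem hv, σ.g_sw]
    · rw [σ.flip_not_mem hv]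
  have hop : ∏ e ∈ om, σ.op e (σ.flip F x (σ.s e))
        (if e ∈ Cut then σ.sw (σ.flip F x (σ.t e)) else σ.flip F x (σ.t e))
      = ∏ e ∈ om, σ.op e (x (σ.s e)) (x (σ.t e)) := by
    refine Finset.prod_congr rfl fun e he => ?_
    have h1 := h e he
    by_cases hc : e ∈ Cut
    · rw [if_pos hc]
      have h2 := h1.1 hc
      by_cases hs : σ.s e ∈ F
      · have ht : σ.t e ∉ F := fun ht => h2 ⟨fun _ => ht, fun _ => hs⟩
        rw [σ.flip_mem hs, σ.flip_not_mem ht, σ.op_sw_sw]
      · have ht : σ.t e ∈ F := by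
          by_contra ht
          exact h2 ⟨fun hh => absurd hh hs, fun hh => absurd hh ht⟩
        rw [σ.flip_not_mem hs, σ.flip_mem ht, σ.sw_sw]
    · rw [if_neg hc]
      have h2 : σ.s e ∈ F ↔ σ.t e ∈ F := by
        by_contra hcon
        exact hc (h1.2 hcon)
      by_cases hs : σ.s e ∈ F
      · rw [σ.flip_mem hs, σ.flip_mem (h2.1 hs), σ.op_sw_sw]
      · rw [σ.flip_not_mem hs, σ.flip_not_mem (fun ht => hs (h2.2 ht))]
  have hcl : ∏ e ∈ omᶜ, σ.cl e (σ.flip F x (σ.s e)) (σ.flip F x (σ.t e))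
      = ∏ e ∈ omᶜ, σ.cl e (x (σ.s e)) (x (σ.t e)) := by
    refine Finset.prod_congr rfl fun e _ => ?_
    by_cases hs : σ.s e ∈ F
    · by_cases ht : σ.t e ∈ F
      · rw [σ.flip_mem hs, σ.flip_mem ht, σ.cl_sw_sw]
      · rw [σ.flip_mem hs, σ.flip_not_mem ht, σ.cl_sw_left]
    · by_cases ht : σ.t e ∈ F
      · rw [σ.flip_not_mem hs, σ.flip_mem ht, σ.cl_sw_right]
      · rw [σ.flip_not_mem hs, σ.flip_not_mem ht]
  rw [hg, hop, hcl]

/-- a configuration of nonzero twisted weight gives the colouring `{d > 0}` -/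
theorem bip_of_ne {om : Finset E} {x : V → S} (h : wtw σ Cut om x ≠ 0) :
    Bip σ.s σ.t Cut om := by
  refine ⟨Finset.univ.filter fun v => 0 < σ.d (x v), fun e he => ?_⟩
  have h1 : σ.op e (x (σ.s e)) (if e ∈ Cut then σ.sw (x (σ.t e)) else x (σ.t e)) ≠ 0 := by
    intro h0
    apply h
    unfold wtw
    rw [Finset.prod_eq_zero he h0, zero_mul, zero_mul]
  have h2 := σ.op_pos h1
  simp only [Finset.mem_filter, Finset.mem_univ, true_and]
  by_cases hc : e ∈ Cut
  · rw [if_pos hc, σ.d_sw] at h2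
    refine ⟨fun _ h3 => ?_, fun _ => hc⟩
    rcases lt_or_ge 0 (σ.d (x (σ.s e))) with h4 | h4
    · have h5 := h3.1 h4
      nlinarith [mul_pos h4 h5]
    · have h5 : ¬ 0 < σ.d (x (σ.t e)) := fun h6 => not_lt.2 h4 (h3.2 h6)
      nlinarith [mul_nonneg_of_nonpos_of_nonpos h4 (not_lt.1 h5)]
  · rw [if_neg hc] at h2
    refine ⟨fun h3 => absurd h3 hc, fun h3 => absurd ?_ h3⟩
    constructor
    · intro h4
      exact (mul_pos_iff_of_pos_left h4).1 h2
    · intro h4
      exact (mul_pos_iff_of_pos_right h4).1 h2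

open Classical in
/-- **swap identity for one set of open edges** -/
theorem tsum_wtw (om : Finset E) :
    ∑' x : V → S, ENNReal.ofReal (wtw σ Cut om x) =
      if Bip σ.s σ.t Cut om then ∑' x : V → S, ENNReal.ofReal (σ.wt om x) else 0 := by
  by_cases hb : Bip σ.s σ.t Cut om
  · rw [if_pos hb]
    obtain ⟨F, hF⟩ := hb
    rw [← (σ.flipE F).tsum_eq]
    refine tsum_congr fun x => ?_
    have h1 : (σ.flipE F) x = σ.flip F x := rfl
    rw [h1, wtw_flip σ Cut hF]
  · rw [if_neg hb]
    rw [ENNReal.tsum_eq_zero]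
    intro x
    have h1 : wtw σ Cut om x = 0 := by
      by_contra h2
      exact hb (bip_of_ne σ Cut h2)
    rw [h1, ENNReal.ofReal_zero]

/-- **swap identity**: twisted partition function = weight of the event `Bip` -/
theorem tsum_totw :
    ∑' x : V → S, ENNReal.ofReal (totw σ Cut x) =
      H576.Ex σ fun _ om => H576.ind (Bip σ.s σ.t Cut om) := by
  have h1 : ∀ x : V → S, ENNReal.ofReal (totw σ Cut x) =
      ∑ om : Finset E, ENNReal.ofReal (wtw σ Cut om x) := by
    intro x
    rw [← sum_wtw, ENNReal.ofReal_sum_of_nonneg fun om _ => wtw_nonneg σ Cut om x]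
  simp_rw [h1]
  unfold H576.Ex
  rw [Summable.tsum_finsetSum fun _ _ => ENNReal.summable,
    Summable.tsum_finsetSum fun _ _ => ENNReal.summable]
  refine Finset.sum_congr rfl fun om _ => ?_
  rw [tsum_wtw, ENNReal.tsum_mul_right]
  unfold H576.ind
  split_ifs
  · rw [mul_one]
  · rw [mul_zero]

/-- the complement: probability of an odd cluster -/
theorem odd_eq :
    ∑' x : V → S, ENNReal.ofReal (totw σ Cut x) +
      H576.Ex σ (fun _ om => H576.ind (¬ Bip σ.s σ.t Cut om)) = H576.Ex σ fun _ _ => 1 := by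
  rw [tsum_totw]
  unfold H576.Ex
  rw [← ENNReal.tsum_add]
  refine tsum_congr fun x => ?_
  rw [← Finset.sum_add_distrib]
  refine Finset.sum_congr rfl fun om _ => ?_
  rw [← mul_add]
  congr 1
  unfold H576.ind
  by_cases h : Bip σ.s σ.t Cut om
  · simp [h]
  · simp [h]

end

end Vale.Agent.P159.TM.H442
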